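import Vale.Agent.N274.Fin
import Vale.Agent.N274.Defs

open Vale.Agent.P274 Vale.Agent.N274 Set Topology
open scoped Manifold

/-- The case of the conjecture of Kollár and Pardon (Q1) in which the presentation has a peak
point.

(1) `M`, `Y` are complex manifolds of dimension `n`, `M` is connected, `ι` is a biholomorphism
from `M` onto the open subset `U = ι.target` of `Y` (no boundedness, `Y` need not be affine), `q`
is a point of the closure of `U` which is a local peak point (`P` holomorphic near `q`, `P q = 1`,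
`|P| < 1` at the other points of the closure of `U` near `q`), and `U` is semianalytic at `q` in a
holomorphic chart `φ`. Then `M` is biholomorphic to a bounded symmetric domain if
(a) a group acts on `M` by holomorphic maps, properly discontinuously, with compact quotient, or
(b) `M` is the universal cover of a compact complex manifold `X`.

(2) A nonempty compact subset `C` of `Y` has a local peak point as soon as some holomorphic map
from a neighbourhood of `C` to `ℂ^N` has discrete fibres at the points of `C`. -/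
theorem Vale.Agent.Results.P274.A0PeakPoint.result :
    (∀ (n : ℕ) (M Y : Type) [TopologicalSpace M] [ChartedSpace (EuclideanSpace ℂ (Fin n)) M]
      [IsManifold 𝓘(ℂ, EuclideanSpace ℂ (Fin n)) 1 M] [ConnectedSpace M]
      [TopologicalSpace Y] [ChartedSpace (EuclideanSpace ℂ (Fin n)) Y]
      [IsManifold 𝓘(ℂ, EuclideanSpace ℂ (Fin n)) 1 Y] [T2Space Y]
      (ι : OpenPartialHomeomorph M Y), ι.source = univ → IsBiholomorphic n ι →
      ∀ q, IsLocalPeakPoint n (closure ι.target) q →
      (∃ φ : OpenPartialHomeomorph Y (EuclideanSpace ℂ (Fin n)), IsBiholomorphic n φ ∧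
        q ∈ φ.source ∧ IsSemianalyticAt (φ '' (φ.source ∩ ι.target)) (φ q)) →
      (∀ (Γ : Type) [Group Γ] [MulAction Γ M],
        (∀ γ : Γ, MDifferentiable 𝓘(ℂ, EuclideanSpace ℂ (Fin n)) 𝓘(ℂ, EuclideanSpace ℂ (Fin n))
          fun x : M => γ • x) →
        ProperlyDiscontinuousSMul Γ M → CompactSpace (MulAction.orbitRel.Quotient Γ M) →
        IsBiholomorphicToBSD n M) ∧
      (∀ (X : Type) [TopologicalSpace X] [ChartedSpace (EuclideanSpace ℂ (Fin n)) X]
        [IsManifold 𝓘(ℂ, EuclideanSpace ℂ (Fin n)) 1 X] [T2Space X] [CompactSpace X]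
        (p : M → X), SimplyConnectedSpace M → IsCoveringMap p → Function.Surjective p →
        IsLocalDiffeomorph 𝓘(ℂ, EuclideanSpace ℂ (Fin n)) 𝓘(ℂ, EuclideanSpace ℂ (Fin n)) 1 p →
        IsBiholomorphicToBSD n M)) ∧
    (∀ (n N : ℕ) (Y : Type) [TopologicalSpace Y] [ChartedSpace (EuclideanSpace ℂ (Fin n)) Y]
      [IsManifold 𝓘(ℂ, EuclideanSpace ℂ (Fin n)) 1 Y] (C O : Set Y)
      (F : Y → EuclideanSpace ℂ (Fin N)), IsCompact C → C.Nonempty → IsOpen O → C ⊆ O →
      MDifferentiableOn 𝓘(ℂ, EuclideanSpace ℂ (Fin n)) 𝓘(ℂ, EuclideanSpace ℂ (Fin N)) F O →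
      (∀ y ∈ C, ∀ᶠ z in 𝓝[≠] y, F z ≠ F y) → ∃ q, IsLocalPeakPoint n C q) := by
  refine ⟨?_, ?_⟩
  · rintro n M Y _ _ _ _ _ _ _ _ ι hι hιd q ⟨hq, W, hW, hqW, P, hP, hPq, hPlt⟩ ⟨φ, hφ, hqφ, hsa⟩
    have hlc : LocallyCompactSpace M :=
      ChartedSpace.locallyCompactSpace (EuclideanSpace ℂ (Fin n)) M
    refine ⟨fun Γ _ _ hΓ hprop hcpt => ?_, fun X _ _ _ _ _ p hsc hp hs hloc => ?_⟩
    · have : ContinuousConstSMul Γ M := ⟨fun γ => (hΓ γ).continuous⟩
      exact core ι hι hιd hq hW hqW hP hPq hPlt φ hφ hqφ hsa Γ hΓ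
        (finite_of_properlyDiscontinuous hprop) exists_isCompact_smul_mem
    · have : LocallyPathConnectedSpace M :=
        ChartedSpace.locallyPathConnectedSpace (EuclideanSpace ℂ (Fin n)) M
      exact core ι hι hιd hq hW hqW hP hPq hPlt φ hφ hqφ hsa
        (deck p) (deck_hol hloc)
        (deck_finite hp) (deck_cocompact hp hs)
  · intro n N Y _ _ _ C O F hC hne hO hCO hF hfib
    exact exists_peak hC hne hO hCO hF hfib
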