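import Vale.Agent.N274X.ProjC

open Vale.Agent.N274X Set
open scoped Manifold

/-- The conjecture of Kollár and Pardon (Q1) for smooth projective varieties whose universal cover
has a presentation as a product.

`X` is a compact complex manifold embedded in a projective space, `p : M → X` is its universal
cover, and `M` is biholomorphic to `U × B × F`, where `U` is a bounded semialgebraic relatively
open subset of an affine variety, `B = ℂ^m` is a finite-dimensional complex vector space and `F`
is a compact complex manifold. Then `F` is simply connected and embedded in a projective space,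
and `M` is biholomorphic to `D × B × F` with `D` a bounded symmetric domain. The action of the
deck group on `U` need not be properly discontinuous. (The charts of `X`, `M` are in `E`, those of `F` in `G`.) -/
theorem Vale.Agent.Results.P274.A0ProductCovers.result
    (E B G : Type) [NormedAddCommGroup E] [NormedSpace ℂ E] [FiniteDimensional ℂ E]
    [NormedAddCommGroup B] [NormedSpace ℂ B] [FiniteDimensional ℂ B]
    [NormedAddCommGroup G] [NormedSpace ℂ G] [FiniteDimensional ℂ G]
    (X M : Type) [TopologicalSpace X] [ChartedSpace E X] [IsManifold 𝓘(ℂ, E) 1 X] [T2Space X]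
    [CompactSpace X] [TopologicalSpace M] [ChartedSpace E M] [IsManifold 𝓘(ℂ, E) 1 M]
    (p : M → X) (hX : ∃ l, EmbedsIn (EuclideanSpace ℂ (Fin l)) E X)
    (hM : SimplyConnectedSpace M) (hp : IsCoveringMap p) (hs : Function.Surjective p)
    (hloc : IsLocalDiffeomorph 𝓘(ℂ, E) 𝓘(ℂ, E) 1 p)
    (N : ℕ) (U : Set (EuclideanSpace ℂ (Fin N))) (hU : OpenInVariety U)
    (hb : Bornology.IsBounded U) (hS : Semialgebraic U)
    (F : Type) [TopologicalSpace F] [ChartedSpace G F] [IsManifold 𝓘(ℂ, G) 1 F] [T2Space F]
    [CompactSpace F] (h : IsProduct E M U B G F) :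
    SimplyConnectedSpace F ∧ (∃ l, EmbedsIn (EuclideanSpace ℂ (Fin l)) G F) ∧
      ∃ (k : ℕ) (D : Set (EuclideanSpace ℂ (Fin k))), IsBSD D ∧ IsProduct E M D B G F := by
  obtain ⟨l, hX⟩ := hX
  obtain ⟨I, O, hO, hU⟩ := hU
  obtain ⟨h1, h2⟩ := product_main hX hp hs hloc I hO hU hb hS.old h
  exact ⟨h1, embeds_of_imm (imm_of_product hX hloc h), h2⟩
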